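import Mathlib
import Vale.Agent.Lib.P158.Law

namespace Vale.Agent.Results.P158.StripEscape

open MeasureTheory Vale.Agent.Lib.P158

/-- First-passage percolation on the square lattice with independent edge weights of common
law `G` (the product measure on weight configurations indexed by the edges), where `G` is any
law on the half-line `[0, ∞)` that is not a point mass, in particular any atomless law.
Almost surely every geodesic ray is unbounded in both coordinates, and both ends of every
bigeodesic are unbounded in both coordinates. So almost surely no geodesic ray, and no end of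
a bigeodesic, stays in a horizontal or vertical strip of finite width. -/
theorem result (G : Measure ℝ) [IsProbabilityMeasure G] (hG0 : G (Set.Iio 0) = 0)
    (hG1 : ∀ x : ℝ, G {x} < 1) :
    ∀ᵐ ω ∂(Measure.infinitePi (fun _ : (ℤ × ℤ) × Bool => G)),
      (∀ v : ℕ → ℤ × ℤ, IsGeodesicRay ω v →
        ∀ M : ℤ, (∃ i, M < |(v i).1|) ∧ (∃ i, M < |(v i).2|)) ∧
      (∀ v : ℤ → ℤ × ℤ, IsBigeodesic ω v →
        ∀ M : ℤ, (∃ i, 0 ≤ i ∧ M < |(v i).1|) ∧ (∃ i, 0 ≤ i ∧ M < |(v i).2|) ∧
          (∃ i, i ≤ 0 ∧ M < |(v i).1|) ∧ (∃ i, i ≤ 0 ∧ M < |(v i).2|)) := by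
  obtain ⟨α, β, hα, hαβ, hq, hq'⟩ := exists_split G hG0 hG1
  obtain ⟨N, hN⟩ := exists_N hα hαβ
  filter_upwards [ae_good G hG0 α β hq hq' N, ae_good_swap G hG0 α β hq hq' N] with ω hg hg'
  exact ⟨fun v hv M => ray_unbounded hα hN hg hg' hv M,
    fun v hv M => bigeodesic_unbounded hα hN hg hg' hv M⟩

end Vale.Agent.Results.P158.StripEscape
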